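import Vale.Agent.P203S46.Edge

/-! P203. The K(π,1) conjecture for all Artin groups, for the Salvetti complex `X(W,S)` itself and
for the orbit space `Y/W`. -/

namespace Vale.Agent.Results.P203.ASalvetti

open Vale.Agent.P203 Vale.Agent.P203S Set

/-- For every Coxeter matrix `M` on a finite set `S`: (1) the Salvetti complex is a Hausdorff CW
complex whose `n`-cells are the spherical subsets of size `n`; (2) its fundamental group at the
vertex is the Artin group, the loop around the one-cell of `s` going to `σ_s`; (3) the Salvetti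
complex and (4) the orbit space `Y/W` are Eilenberg-MacLane spaces `K(A_M, 1)`; (5) they are
homotopy equivalent. -/
theorem result {S : Type} [Finite S] (M : CoxeterMatrix S) :
    (T2Space (Salvetti M) ∧
      ∃ (C : Topology.CWComplex (univ : Set (Salvetti M))) (e : ∀ n, Cell M n ≃ C.cell n),
        ∀ n T, C.map n (e n T) '' Metric.closedBall 0 1 = face M T) ∧
    (∃ (x₀ : Salvetti M) (φ : FundamentalGroup (Salvetti M) x₀ ≃* ArtinGroup M),
      (∀ T : Cell M 0, face M T = {x₀}) ∧ ∀ (s : S) (T : Cell M 1), T.T = {s} →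
        ∃ γ : Path x₀ x₀, range γ = face M T ∧ InjOn γ (Ico 0 1) ∧
          φ (FundamentalGroup.fromPath ⟦γ⟧) = artinGen M s) ∧
    IsKPiOne (ArtinGroup M) (Salvetti M) ∧
    IsKPiOne (ArtinGroup M) (OrbitSpace M) ∧
    Nonempty (ContinuousMap.HomotopyEquiv (Salvetti M) (OrbitSpace M)) :=
  ⟨⟨t2_X, exists_cw⟩, exists_gen, kpi_all⟩

end Vale.Agent.Results.P203.ASalvetti
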